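import Vale.Agent.P317.Ex

/-! The algorithm on bit strings. -/

namespace Vale.Agent.P317

def sumR (m : ℕ) (g : ℕ → ℕ) : ℕ := ∑ i ∈ Finset.range m, g i

def allR (m : ℕ) (g : ℕ → Bool) : Bool := Nat.beq (sumR m fun i => cond (g i) 0 1) 0

def mapR (m : ℕ) (g : ℕ → Bool) : List Bool := (List.range m).map g

def valB (cap : ℕ) (l : List Bool) : ℕ := l.foldr (fun b a => min (b2n b + 2 * a) cap) 0

def Par : Type := ℕ × ℕ × ℕ × ℕ × ℕ × ℕ × ℕ

namespace Par

variable (p : Par)

def n : ℕ := p.1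
def r : ℕ := p.2.1
def A : ℕ := p.2.2.1
def T : ℕ := p.2.2.2.1
def Q : ℕ := p.2.2.2.2.1
def κ : ℕ := p.2.2.2.2.2.1
def cs : ℕ := p.2.2.2.2.2.2
def m : ℕ := p.n + p.r
def L : ℕ := 2 * p.A * p.n
def B : ℕ := (p.L + 1) * p.T

end Par

variable (p : Par)

def isT (l : List Bool) : Bool := allR p.m fun g => xor (bit l (2 * g)) (bit l (2 * g + 1))

def isN (l : List Bool) (i j : ℕ) : Bool :=
  bit l (2 * i) && (bit l (2 * i + 1) && (!bit l (2 * j) && (!bit l (2 * j + 1) &&
    allR p.m fun g => Nat.beq g i || (Nat.beq g j || xor (bit l (2 * g)) (bit l (2 * g + 1))))))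

def isA (s : ℕ) (l : List Bool) : Bool :=
  isT p l && cond (Nat.ble p.L s) (allR p.r fun c => !bit l (2 * (p.n + c))) (bit l (2 * (s / (2 * p.A))))

def fld (t g : ℕ) : ℕ := cond (Nat.ble p.n g) p.A (min (2 * p.A) (t - 2 * p.A * g))

def smp (H : ℕ → List Bool) (s q : ℕ) : List Bool := H ((s * p.Q + q) * p.B + p.B - 1)

def cntT (H : ℕ → List Bool) (s : ℕ) : ℕ := sumR p.Q fun q => b2n (isT p (smp p H s q))

def cntA (H : ℕ → List Bool) (s : ℕ) : ℕ := sumR p.Q fun q => b2n (isA p s (smp p H s q))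

def cntN (H : ℕ → List Bool) (s i j : ℕ) : ℕ := sumR p.Q fun q => b2n (isN p (smp p H s q) i j)

def aexp (H : ℕ → List Bool) (t i j : ℕ) : ℕ :=
  cond (Nat.ble p.n i && !Nat.ble p.n j) 0 p.A + (p.L - t) +
    2 * sumR t fun s => b2n (!Nat.ble (cntT p H s) (cntN p H s i j))

def expo (H : ℕ → List Bool) (t : ℕ) (l : List Bool) : ℕ :=
  sumR p.m (fun g => cond (bit l (2 * g)) (fld p t g) 0) + (cond (isT p l) p.L 0 +
    sumR p.m fun i => sumR p.m fun j => cond (isN p l i j) (aexp p H t i j) 0)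

def init : List Bool :=
  mapR (2 * p.m) fun v => cond (Nat.beq (v % 2) 0) (Nat.ble p.n (v / 2)) (!Nat.ble p.n (v / 2))

def cur (H : ℕ → List Bool) (g : ℕ) : List Bool := cond (Nat.beq (g % p.B) 0) (init p) (H (g - 1))

def stg (g : ℕ) : ℕ := min (g % p.B / p.T) (g / p.B / p.Q)

def gp (c : List Bool) : ℕ := valB p.m (c.take p.κ)

def gs (c : List Bool) : ℕ := valB p.m ((c.drop (p.κ + 1)).take p.κ)

def ixp (c : List Bool) : ℕ := 2 * gp p c + b2n (bit c p.κ)

def ixs (c : List Bool) : ℕ := 2 * gs p c + b2n (bit c (2 * p.κ + 1))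

def prop (l c : List Bool) : List Bool :=
  mapR (2 * p.m) fun v => Nat.beq v (ixs p c) || (!Nat.beq v (ixp p c) && bit l v)

def qry (l c : List Bool) : List Bool :=
  mapR p.n (fun e => bit (prop p l c) (2 * e)) ++ mapR p.n fun e => !bit (prop p l c) (2 * e + 1)

def typ (l : List Bool) : Bool := isT p l || !allR p.m fun i => allR p.m fun j => !isN p l i j

def szs (l : List Bool) : Bool :=
  Nat.beq (sumR p.m fun g => b2n (bit l (2 * g))) p.r &&
    Nat.beq (sumR p.m fun g => b2n (!bit l (2 * g + 1))) p.r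

def okm (H : ℕ → List Bool) (t : ℕ) (l c : List Bool) (a : Bool) : Bool :=
  (Nat.ble (gp p c + 1) p.m && (Nat.ble (gs p c + 1) p.m && (bit l (ixp p c) && !bit l (ixs p c)))) &&
    ((a && (szs p (prop p l c) && typ p (prop p l c))) &&
      allR (expo p H t l - expo p H t (prop p l c)) fun i => bit (c.drop (2 * p.κ + 2)) i)

def move (H : ℕ → List Bool) (t : ℕ) (l c : List Bool) (a : Bool) : List Bool :=
  mapR (2 * p.m) fun v => bit (cond (okm p H t l c a) (prop p l c) l) v

def blk (tr : List Bool) (i : ℕ) : List Bool := (tr.drop (i * (2 * p.m))).take (2 * p.m)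

def chunk (ρ : List Bool) (g : ℕ) : List Bool := (ρ.drop (g * p.cs)).take p.cs

def trj (ρ ans : List Bool) : ℕ → List Bool
  | 0 => []
  | g + 1 => trj ρ ans g ++ move p (blk p (trj ρ ans g)) (stg p g) (cur p (blk p (trj ρ ans g)) g)
      (chunk p ρ g) (bit ans (2 * (p.n + g)) && bit ans (2 * (p.n + g) + 1))

def greedy (n : ℕ) (ans : List Bool) (j : ℕ) : List Bool :=
  mapR n fun i => Nat.beq i j || (Nat.ble (i + 1) j && bit ans (2 * i))

def askP (ρ ans : List Bool) : List Bool :=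
  cond (Nat.ble p.n (ans.length / 2))
    (qry p (cur p (blk p (trj p ρ ans (ans.length / 2 - p.n))) (ans.length / 2 - p.n))
      (chunk p ρ (ans.length / 2 - p.n)))
    (greedy p.n ans (ans.length / 2))

def carry (l : List Bool) (c : ℕ) : ℕ → ℕ
  | 0 => 0
  | i + 1 => (c * b2n (bit l i) + carry l c i) / 2

def mulB (l : List Bool) (c : ℕ) : List Bool :=
  mapR (l.length + c) fun i => Nat.beq ((c * b2n (bit l i) + carry l c i) % 2) 1

def prodB (l : List Bool) (f : ℕ → ℕ) : ℕ → List Bool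
  | 0 => l
  | t + 1 => mulB (prodB l f t) (f t)

def numf (H : ℕ → List Bool) (t : ℕ) : ℕ := cond (Nat.ble p.L t) 0 (cntT p H t) + cntA p H t

def tot : ℕ := (p.L + 1) * p.Q * p.B

def numH (H : ℕ → List Bool) : List Bool := prodB [true] (numf p H) (p.L + 1)

def denH (H : ℕ → List Bool) : List Bool :=
  prodB (List.replicate (p.A * p.r) false ++ [true]) (cntT p H) (p.L + 1)

def lead (z : List Bool) : ℕ := z.foldr (fun b a => cond b (a + 1) 0) 0

def rest (z : List Bool) : List Bool := z.drop (lead z + 1)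

theorem allR_iff {m : ℕ} {g : ℕ → Bool} : allR m g = true ↔ ∀ i < m, g i = true := by
  simp only [allR, sumR, Nat.beq_eq, Finset.sum_eq_zero_iff, Finset.mem_range]
  refine forall_congr' fun i => forall_congr' fun _ => ?_
  cases g i <;> simp

@[simp] theorem length_mapR (m : ℕ) (g : ℕ → Bool) : (mapR m g).length = m := by simp [mapR]

theorem bit_mapR {m : ℕ} (g : ℕ → Bool) {i : ℕ} (h : i < m) : bit (mapR m g) i = g i := by
  simp [bit, mapR, h]

theorem bit_of_le {l : List Bool} {i : ℕ} (h : l.length ≤ i) : bit l i = false := by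
  simp [bit, h]

theorem valB_eq (cap : ℕ) (l : List Bool) : valB cap l = min (valU l) cap := by
  induction l with
  | nil => simp [valB, valU]
  | cons b l ih =>
    simp only [valB, valU, List.foldr_cons] at ih ⊢
    omega

end Vale.Agent.P317
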