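import Mathlib

/-! Expectation over uniformly random bit strings. -/

namespace Vale.Agent.P317

open Finset

noncomputable def Ex : ℕ → (List Bool → ℝ) → ℝ
  | 0, f => f []
  | m + 1, f => (Ex m (fun l => f (false :: l)) + Ex m (fun l => f (true :: l))) / 2

theorem Ex_mono {m : ℕ} {f g : List Bool → ℝ} (h : ∀ l, l.length = m → f l ≤ g l) : Ex m f ≤ Ex m g := by
  induction m generalizing f g with
  | zero => exact h _ rfl
  | succ m ih =>
    simp only [Ex]
    have h1 := ih (f := fun l => f (false :: l)) (g := fun l => g (false :: l)) fun l hl => h _ (by simp [hl])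
    have h2 := ih (f := fun l => f (true :: l)) (g := fun l => g (true :: l)) fun l hl => h _ (by simp [hl])
    linarith

theorem Ex_congr {m : ℕ} {f g : List Bool → ℝ} (h : ∀ l, l.length = m → f l = g l) : Ex m f = Ex m g :=
  le_antisymm (Ex_mono fun l hl => (h l hl).le) (Ex_mono fun l hl => (h l hl).ge)

theorem Ex_const (m : ℕ) (a : ℝ) : Ex m (fun _ => a) = a := by
  induction m with
  | zero => rfl
  | succ m ih => simp [Ex, ih]

theorem Ex_add (m : ℕ) (f g : List Bool → ℝ) : Ex m (fun l => f l + g l) = Ex m f + Ex m g := by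
  induction m generalizing f g with
  | zero => rfl
  | succ m ih => simp only [Ex, ih]; ring

theorem Ex_mul (m : ℕ) (a : ℝ) (f : List Bool → ℝ) : Ex m (fun l => a * f l) = a * Ex m f := by
  induction m generalizing f with
  | zero => rfl
  | succ m ih => simp only [Ex, ih]; ring

theorem Ex_sum {ι : Type} (s : Finset ι) (m : ℕ) (f : ι → List Bool → ℝ) :
    Ex m (fun l => ∑ i ∈ s, f i l) = ∑ i ∈ s, Ex m (f i) := by
  classical
  induction s using Finset.induction_on with
  | empty => simp [Ex_const]
  | insert i s h ih => simp only [sum_insert h, Ex_add, ih]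

theorem Ex_append (a b : ℕ) (f : List Bool → ℝ) :
    Ex (a + b) f = Ex a (fun x => Ex b (fun y => f (x ++ y))) := by
  induction a generalizing f with
  | zero => simp [Ex]
  | succ a ih => rw [Nat.succ_add]; simp only [Ex, ih, List.cons_append]

theorem Ex_eq_sum (m : ℕ) (f : List Bool → ℝ) :
    Ex m f * 2 ^ m = ∑ ρ : Fin m → Bool, f (List.ofFn ρ) := by
  induction m generalizing f with
  | zero => simp [Ex]
  | succ m ih =>
    rw [← (Fin.consEquiv fun _ : Fin (m + 1) => Bool).sum_comp, Fintype.sum_prod_type, Fintype.sum_bool]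
    simp only [Ex, Fin.consEquiv_apply, List.ofFn_succ, Fin.cons_zero, Fin.cons_succ]
    rw [← ih (fun l => f (true :: l)), ← ih (fun l => f (false :: l))]
    ring

def b2n (b : Bool) : ℕ := cond b 1 0

def valU (l : List Bool) : ℕ := l.foldr (fun b a => b2n b + 2 * a) 0

theorem Ex_val (m : ℕ) (F : ℕ → ℝ) : Ex m (fun l => F (valU l)) = (∑ v ∈ range (2 ^ m), F v) / 2 ^ m := by
  induction m generalizing F with
  | zero => simp [Ex, valU]
  | succ m ih =>
    have e : ∀ k, ∑ v ∈ range (2 * k), F v = ∑ v ∈ range k, F (2 * v) + ∑ v ∈ range k, F (1 + 2 * v) := by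
      intro k
      induction k with
      | zero => simp
      | succ k ihk => rw [mul_add, mul_one, sum_range_succ, sum_range_succ, sum_range_succ,
          sum_range_succ, ihk, add_comm 1]; ring
    simp only [Ex, valU, List.foldr_cons, b2n, cond_true, cond_false, zero_add]
    have h1 := ih fun v => F (2 * v)
    have h2 := ih fun v => F (1 + 2 * v)
    simp only [valU, b2n] at h1 h2
    rw [h1, h2, pow_succ', e]
    field_simp; ring

def bit (l : List Bool) (i : ℕ) : Bool := l.getD i false

theorem Ex_all {d m : ℕ} (h : d ≤ m) (x y : ℝ) :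
    Ex m (fun l => if ∀ i < d, bit l i = true then x else y) = y + (x - y) / 2 ^ d := by
  induction d generalizing m with
  | zero => simp [Ex_const]
  | succ d ih =>
    obtain ⟨m, rfl⟩ := Nat.exists_eq_succ_of_ne_zero (show m ≠ 0 by omega)
    have e1 : ∀ l, (∀ i < d + 1, bit (true :: l) i = true) ↔ ∀ i < d, bit l i = true := fun l => by
      rw [Nat.forall_lt_succ_left]; simp [bit]
    have e2 : ∀ l, ¬ ∀ i < d + 1, bit (false :: l) i = true := fun l h => by
      simpa [bit] using h 0 (by omega)
    simp only [Ex, e1, e2, if_false, Ex_const, ih (show d ≤ m by omega)]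
    field_simp; ring

/-- a process that fills in one entry of its history per step -/
def proc {α : Type} (cs : ℕ) (H0 : ℕ → α) (st : ℕ → (ℕ → α) → List Bool → α) (ρ : List Bool) :
    ℕ → ℕ → α
  | 0 => H0
  | g + 1 => Function.update (proc cs H0 st ρ g) g
      (st g (proc cs H0 st ρ g) ((ρ.drop (g * cs)).take cs))

section proc

variable {α : Type} (cs : ℕ) (H0 : ℕ → α) (st : ℕ → (ℕ → α) → List Bool → α)

theorem proc_append (ρ x : List Bool) (g : ℕ) (h : g * cs ≤ ρ.length) :
    proc cs H0 st (ρ ++ x) g = proc cs H0 st ρ g := by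
  induction g with
  | zero => rfl
  | succ g ih =>
    have h1 : g * cs + cs ≤ ρ.length := by rwa [Nat.succ_mul] at h
    simp only [proc, ih (by omega)]
    rw [List.drop_append_of_le_length (by omega), List.take_append_of_le_length (by simp; omega)]

/-- expectation at time `g` -/
noncomputable def Et (g : ℕ) (Φ : (ℕ → α) → ℝ) : ℝ := Ex (g * cs) fun ρ => Φ (proc cs H0 st ρ g)

theorem Et_succ (g : ℕ) (Φ : (ℕ → α) → ℝ) : Et cs H0 st (g + 1) Φ =
    Et cs H0 st g fun H => Ex cs fun c => Φ (Function.update H g (st g H c)) := by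
  rw [Et, Nat.succ_mul, Ex_append]
  refine Ex_congr fun ρ hρ => Ex_congr fun c hc => ?_
  simp only [proc]
  rw [proc_append cs H0 st ρ c g hρ.ge, List.drop_left' hρ, List.take_of_length_le hc.le]

theorem Ex_Et (g m : ℕ) (h : g * cs ≤ m) (Φ : (ℕ → α) → ℝ) :
    Ex m (fun ρ => Φ (proc cs H0 st ρ g)) = Et cs H0 st g Φ := by
  obtain ⟨k, rfl⟩ := Nat.exists_eq_add_of_le h
  rw [Ex_append]
  refine Ex_congr fun ρ hρ => ?_
  simp only [fun x => proc_append cs H0 st ρ x g hρ.ge, Ex_const]

def Agree (N : ℕ) (H H' : ℕ → α) : Prop := ∀ i < N, H i = H' i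

theorem agree_update {N g : ℕ} (h : N ≤ g) (H : ℕ → α) (a : α) : Agree N (Function.update H g a) H :=
  fun i hi => Function.update_of_ne (by omega) _ _

theorem Agree.mono {N N' : ℕ} {H H' : ℕ → α} (h : Agree N H H') (h' : N' ≤ N) : Agree N' H H' :=
  fun i hi => h i (by omega)

theorem Et_late {N : ℕ} {Φ : (ℕ → α) → ℝ} (hΦ : ∀ H H', Agree N H H' → Φ H = Φ H') {g : ℕ}
    (h : N ≤ g) : Et cs H0 st g Φ = Et cs H0 st N Φ := by
  induction g, h using Nat.le_induction with
  | base => rfl
  | succ g h ih =>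
    rw [Et_succ, ← ih]
    congr 1
    funext H
    simp only [fun a => hΦ _ _ (agree_update h H a), Ex_const]

theorem Et_mono (g : ℕ) {Φ Ψ : (ℕ → α) → ℝ} (h : ∀ H, Φ H ≤ Ψ H) :
    Et cs H0 st g Φ ≤ Et cs H0 st g Ψ := Ex_mono fun _ _ => h _

end proc

end Vale.Agent.P317
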