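import Vale.Agent.PT.Typed
import Vale.Agent.P317.Algo

/-! The algorithm runs in polynomial time. -/

namespace Vale.Agent.P317

open Vale.Agent.PT

variable {α : Type} [Ctx Bool α]

@[fun_prop] theorem pt_drop {l : α → List Bool} {k : α → ℕ} (hl : PT Bool l) (hk : PT Bool k) :
    PT Bool fun a => (l a).drop (k a) :=
  PT.natRec hk (fun a i => (l a).drop i) (by simpa using hl) (fun x => x.2.2.tail) (by fun_prop)
    (fun a i => by simp) ⟨_, hl.size_pb, fun a i _ => by simp⟩

@[fun_prop] theorem pt_bit {l : α → List Bool} {k : α → ℕ} (hl : PT Bool l) (hk : PT Bool k) :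
    PT Bool fun a => bit (l a) (k a) :=
  (PT.casesHead (pt_drop hl hk) (F := fun o _ => o.getD false) fun _ => PT.const _).congr fun a => by
    simp [bit]

@[fun_prop] theorem pt_b2n {b : α → Bool} (hb : PT Bool b) : PT Bool fun a => b2n (b a) := by
  unfold b2n; fun_prop

@[fun_prop] theorem pt_xor {b c : α → Bool} (hb : PT Bool b) (hc : PT Bool c) :
    PT Bool fun a => xor (b a) (c a) :=
  (PT.cond' hb hc.not' hc).congr fun a => by cases b a <;> simp

@[fun_prop] theorem pt_min {b c : α → ℕ} (hb : PT Bool b) (hc : PT Bool c) :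
    PT Bool fun a => min (b a) (c a) :=
  (hb.sub (hb.sub hc)).congr fun a => by omega

@[fun_prop] theorem pt_mapR {m : α → ℕ} {g : α → ℕ → Bool} (hm : PT Bool m)
    (hg : PT Bool fun x : α × ℕ => g x.1 x.2) : PT Bool fun a => mapR (m a) (g a) :=
  (PT.flatMapRange hm (g := fun a i => cond (g a i) [true] [false]) (by fun_prop)).congr fun a => by
    rw [mapR, List.map_eq_flatMap]
    congr 1
    funext i
    cases g a i <;> rfl

@[fun_prop] theorem pt_sumR {m : α → ℕ} {g : α → ℕ → ℕ} (hm : PT Bool m)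
    (hg : PT Bool fun x : α × ℕ => g x.1 x.2) : PT Bool fun a => sumR (m a) (g a) :=
  (PT.flatMapRange hm (g := fun a i => List.replicate (g a i) default) hg.toUnary).length.congr fun a => by
    simp only [sumR, List.length_flatMap, List.length_replicate]
    rfl

@[fun_prop] theorem pt_allR {m : α → ℕ} {g : α → ℕ → Bool} (hm : PT Bool m)
    (hg : PT Bool fun x : α × ℕ => g x.1 x.2) : PT Bool fun a => allR (m a) (g a) := by
  unfold allR; fun_prop

@[fun_prop] theorem pt_take {l : α → List Bool} {k : α → ℕ} (hl : PT Bool l) (hk : PT Bool k) :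
    PT Bool fun a => (l a).take (k a) := by
  have : PT Bool fun a => mapR (min (k a) (l a).length) (fun i => bit (l a) i) := by fun_prop
  refine this.congr fun a => ?_
  refine List.ext_getElem (by simp) fun i h1 h2 => ?_
  simp only [length_mapR] at h1
  simp [mapR, bit, List.getElem?_eq_getElem (show i < (l a).length by omega)]

@[fun_prop] theorem pt_valB {l : α → List Bool} {k : α → ℕ} (hk : PT Bool k) (hl : PT Bool l) :
    PT Bool fun a => valB (k a) (l a) := by
  apply PT.ofUnary
  exact PT.listRec hl (fun a P => List.replicate (valB (k a) P) default) (PT.const _)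
    (fun c x => List.replicate (min (b2n c + 2 * x.2.2.length) (k x.1)) default)
    (fun c => PT.toUnary (by fun_prop)) (fun a c P => by simp [valB])
    ⟨k, hk.pb, fun a P _ => by simp [valB_eq]⟩

@[fun_prop] theorem pt_lead {l : α → List Bool} (hl : PT Bool l) : PT Bool fun a => lead (l a) := by
  apply PT.ofUnary
  refine PT.listRec hl (fun a P => List.replicate (lead P) default) (PT.const _)
    (fun c x => List.replicate (cond c (x.2.2.length + 1) 0) default)
    (fun c => PT.toUnary (by fun_prop)) (fun a c P => by simp [lead])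
    ⟨_, hl.size_pb, fun a P hP => ?_⟩
  have : ∀ P : List Bool, lead P ≤ P.length := fun P => by
    induction P with
    | nil => simp [lead]
    | cons b P ih => cases b <;> simp_all [lead]
  simpa using (this P).trans hP.length_le

@[fun_prop] theorem pt_rest {l : α → List Bool} (hl : PT Bool l) : PT Bool fun a => rest (l a) := by
  unfold rest; fun_prop

instance : Ctx Bool Par := inferInstanceAs (Ctx Bool (ℕ × ℕ × ℕ × ℕ × ℕ × ℕ × ℕ))

variable {p : α → Par}

@[fun_prop] theorem pt_n (hp : PT Bool p) : PT Bool fun a => (p a).n := PT.fst hp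
@[fun_prop] theorem pt_r (hp : PT Bool p) : PT Bool fun a => (p a).r := PT.fst (PT.snd hp)
@[fun_prop] theorem pt_A (hp : PT Bool p) : PT Bool fun a => (p a).A := PT.fst (PT.snd (PT.snd hp))
@[fun_prop] theorem pt_T (hp : PT Bool p) : PT Bool fun a => (p a).T :=
  PT.fst (PT.snd (PT.snd (PT.snd hp)))
@[fun_prop] theorem pt_Q (hp : PT Bool p) : PT Bool fun a => (p a).Q :=
  PT.fst (PT.snd (PT.snd (PT.snd (PT.snd hp))))
@[fun_prop] theorem pt_κ (hp : PT Bool p) : PT Bool fun a => (p a).κ :=
  PT.fst (PT.snd (PT.snd (PT.snd (PT.snd (PT.snd hp)))))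
@[fun_prop] theorem pt_cs (hp : PT Bool p) : PT Bool fun a => (p a).cs :=
  PT.snd (PT.snd (PT.snd (PT.snd (PT.snd (PT.snd hp)))))
@[fun_prop] theorem pt_m (hp : PT Bool p) : PT Bool fun a => (p a).m := by unfold Par.m; fun_prop
@[fun_prop] theorem pt_L (hp : PT Bool p) : PT Bool fun a => (p a).L := by unfold Par.L; fun_prop
@[fun_prop] theorem pt_B (hp : PT Bool p) : PT Bool fun a => (p a).B := by unfold Par.B; fun_prop

variable {l c tr : α → List Bool} {i j s t g : α → ℕ}

@[fun_prop] theorem pt_isT (hp : PT Bool p) (hl : PT Bool l) : PT Bool fun a => isT (p a) (l a) := by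
  unfold isT; fun_prop

@[fun_prop] theorem pt_isN (hp : PT Bool p) (hl : PT Bool l) (hi : PT Bool i) (hj : PT Bool j) :
    PT Bool fun a => isN (p a) (l a) (i a) (j a) := by
  unfold isN; fun_prop

@[fun_prop] theorem pt_isA (hp : PT Bool p) (hs : PT Bool s) (hl : PT Bool l) :
    PT Bool fun a => isA (p a) (s a) (l a) := by
  unfold isA; fun_prop

@[fun_prop] theorem pt_fld (hp : PT Bool p) (ht : PT Bool t) (hg : PT Bool g) :
    PT Bool fun a => fld (p a) (t a) (g a) := by
  unfold fld; fun_prop

@[fun_prop] theorem pt_blk (hp : PT Bool p) (htr : PT Bool tr) (hi : PT Bool i) :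
    PT Bool fun a => blk (p a) (tr a) (i a) := by
  unfold blk; fun_prop

variable {H : α → ℕ → List Bool}

@[fun_prop] theorem pt_smp (hp : PT Bool p) (hH : PT Bool fun x : α × ℕ => H x.1 x.2)
    (hs : PT Bool s) (hi : PT Bool i) : PT Bool fun a => smp (p a) (H a) (s a) (i a) := by
  unfold smp; fun_prop

@[fun_prop] theorem pt_cntT (hp : PT Bool p) (hH : PT Bool fun x : α × ℕ => H x.1 x.2)
    (hs : PT Bool s) : PT Bool fun a => cntT (p a) (H a) (s a) := by
  unfold cntT; fun_prop

@[fun_prop] theorem pt_cntA (hp : PT Bool p) (hH : PT Bool fun x : α × ℕ => H x.1 x.2)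
    (hs : PT Bool s) : PT Bool fun a => cntA (p a) (H a) (s a) := by
  unfold cntA; fun_prop

@[fun_prop] theorem pt_cntN (hp : PT Bool p) (hH : PT Bool fun x : α × ℕ => H x.1 x.2)
    (hs : PT Bool s) (hi : PT Bool i) (hj : PT Bool j) :
    PT Bool fun a => cntN (p a) (H a) (s a) (i a) (j a) := by
  unfold cntN; fun_prop

@[fun_prop] theorem pt_aexp (hp : PT Bool p) (hH : PT Bool fun x : α × ℕ => H x.1 x.2)
    (hs : PT Bool s) (hi : PT Bool i) (hj : PT Bool j) :
    PT Bool fun a => aexp (p a) (H a) (s a) (i a) (j a) := by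
  unfold aexp; fun_prop

@[fun_prop] theorem pt_expo (hp : PT Bool p) (hH : PT Bool fun x : α × ℕ => H x.1 x.2)
    (hs : PT Bool s) (hl : PT Bool l) : PT Bool fun a => expo (p a) (H a) (s a) (l a) := by
  unfold expo; fun_prop

@[fun_prop] theorem pt_init (hp : PT Bool p) : PT Bool fun a => init (p a) := by
  unfold init; fun_prop

@[fun_prop] theorem pt_cur (hp : PT Bool p) (hH : PT Bool fun x : α × ℕ => H x.1 x.2)
    (hs : PT Bool s) : PT Bool fun a => cur (p a) (H a) (s a) := by
  unfold cur; fun_prop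

@[fun_prop] theorem pt_stg (hp : PT Bool p) (hs : PT Bool s) : PT Bool fun a => stg (p a) (s a) := by
  unfold stg; fun_prop

@[fun_prop] theorem pt_gp (hp : PT Bool p) (hc : PT Bool c) : PT Bool fun a => gp (p a) (c a) := by
  unfold gp; fun_prop

@[fun_prop] theorem pt_gs (hp : PT Bool p) (hc : PT Bool c) : PT Bool fun a => gs (p a) (c a) := by
  unfold gs; fun_prop

@[fun_prop] theorem pt_ixp (hp : PT Bool p) (hc : PT Bool c) : PT Bool fun a => ixp (p a) (c a) := by
  unfold ixp; fun_prop

@[fun_prop] theorem pt_ixs (hp : PT Bool p) (hc : PT Bool c) : PT Bool fun a => ixs (p a) (c a) := by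
  unfold ixs; fun_prop

@[fun_prop] theorem pt_prop (hp : PT Bool p) (hl : PT Bool l) (hc : PT Bool c) :
    PT Bool fun a => prop (p a) (l a) (c a) := by
  unfold prop; fun_prop

@[fun_prop] theorem pt_qry (hp : PT Bool p) (hl : PT Bool l) (hc : PT Bool c) :
    PT Bool fun a => qry (p a) (l a) (c a) := by
  unfold qry; fun_prop

@[fun_prop] theorem pt_typ (hp : PT Bool p) (hl : PT Bool l) : PT Bool fun a => typ (p a) (l a) := by
  unfold typ; fun_prop

@[fun_prop] theorem pt_szs (hp : PT Bool p) (hl : PT Bool l) : PT Bool fun a => szs (p a) (l a) := by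
  unfold szs; fun_prop

@[fun_prop] theorem pt_okm {b : α → Bool} (hp : PT Bool p) (hH : PT Bool fun x : α × ℕ => H x.1 x.2)
    (ht : PT Bool t) (hl : PT Bool l) (hc : PT Bool c) (hb : PT Bool b) :
    PT Bool fun a => okm (p a) (H a) (t a) (l a) (c a) (b a) := by
  unfold okm; fun_prop

@[fun_prop] theorem pt_move {b : α → Bool} (hp : PT Bool p) (hH : PT Bool fun x : α × ℕ => H x.1 x.2)
    (ht : PT Bool t) (hl : PT Bool l) (hc : PT Bool c) (hb : PT Bool b) :
    PT Bool fun a => move (p a) (H a) (t a) (l a) (c a) (b a) := by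
  unfold move; fun_prop

@[fun_prop] theorem pt_chunk (hp : PT Bool p) (hl : PT Bool l) (hg : PT Bool g) :
    PT Bool fun a => chunk (p a) (l a) (g a) := by
  unfold chunk; fun_prop

theorem length_trj (p : Par) (ρ ans : List Bool) (g : ℕ) : (trj p ρ ans g).length = g * (2 * p.m) := by
  induction g with
  | zero => simp [trj]
  | succ g ih => simp [trj, move, ih, Nat.succ_mul]

@[fun_prop] theorem pt_trj (hp : PT Bool p) (hl : PT Bool l) (hc : PT Bool c) (hg : PT Bool g) :
    PT Bool fun a => trj (p a) (l a) (c a) (g a) :=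
  PT.natRec hg (fun a i => trj (p a) (l a) (c a) i) (PT.const _)
    (fun x => x.2.2 ++ move (p x.1) (blk (p x.1) x.2.2) (stg (p x.1) x.2.1)
      (cur (p x.1) (blk (p x.1) x.2.2) x.2.1) (chunk (p x.1) (l x.1) x.2.1)
      (bit (c x.1) (2 * ((p x.1).n + x.2.1)) && bit (c x.1) (2 * ((p x.1).n + x.2.1) + 1)))
    (by fun_prop) (fun _ _ => rfl)
    ⟨fun a => g a * (2 * (p a).m), PT.pb (by fun_prop), fun a i hi => by
      rw [length_trj]; exact Nat.mul_le_mul_right _ hi⟩

@[fun_prop] theorem pt_greedy (hi : PT Bool i) (hl : PT Bool l) (hg : PT Bool g) :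
    PT Bool fun a => greedy (i a) (l a) (g a) := by
  unfold greedy; fun_prop

@[fun_prop] theorem pt_askP (hp : PT Bool p) (hl : PT Bool l) (hc : PT Bool c) :
    PT Bool fun a => askP (p a) (l a) (c a) := by
  unfold askP; fun_prop

theorem carry_le (l : List Bool) (c i : ℕ) : carry l c i ≤ c := by
  induction i with
  | zero => simp [carry]
  | succ i ih =>
    have : c * b2n (bit l i) ≤ c := by cases bit l i <;> simp [b2n]
    simp only [carry]; omega

@[fun_prop] theorem pt_carry (hl : PT Bool l) (hs : PT Bool s) (hi : PT Bool i) :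
    PT Bool fun a => carry (l a) (s a) (i a) :=
  PT.natRecN hi (fun a i => carry (l a) (s a) i) (PT.const _)
    (fun x => (s x.1 * b2n (bit (l x.1) x.2.1) + x.2.2) / 2) (by fun_prop) (fun _ _ => rfl)
    ⟨s, hs.pb, fun a i _ => carry_le _ _ _⟩

@[fun_prop] theorem pt_mulB (hl : PT Bool l) (hs : PT Bool s) : PT Bool fun a => mulB (l a) (s a) := by
  unfold mulB; fun_prop

theorem length_prodB (l : List Bool) (f : ℕ → ℕ) (t : ℕ) : (prodB l f t).length = l.length + sumR t f := by
  induction t with
  | zero => simp [prodB, sumR]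
  | succ t ih => simp only [prodB, mulB, length_mapR, ih, sumR, Finset.sum_range_succ]; omega

@[fun_prop] theorem pt_prodB {f : α → ℕ → ℕ} (hl : PT Bool l) (hf : PT Bool fun x : α × ℕ => f x.1 x.2)
    (ht : PT Bool t) : PT Bool fun a => prodB (l a) (f a) (t a) :=
  PT.natRec ht (fun a i => prodB (l a) (f a) i) hl
    (fun x => mulB x.2.2 (f x.1 x.2.1)) (by fun_prop) (fun _ _ => rfl)
    ⟨fun a => (l a).length + sumR (t a) (f a), PT.pb (by fun_prop), fun a i hi => by
      rw [length_prodB]
      exact Nat.add_le_add_left (Finset.sum_le_sum_of_subset (Finset.range_mono hi)) _⟩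

@[fun_prop] theorem pt_numf (hp : PT Bool p) (hH : PT Bool fun x : α × ℕ => H x.1 x.2)
    (hs : PT Bool s) : PT Bool fun a => numf (p a) (H a) (s a) := by
  unfold numf; fun_prop

@[fun_prop] theorem pt_tot (hp : PT Bool p) : PT Bool fun a => tot (p a) := by
  unfold tot; fun_prop

@[fun_prop] theorem pt_numH (hp : PT Bool p) (hH : PT Bool fun x : α × ℕ => H x.1 x.2) :
    PT Bool fun a => numH (p a) (H a) := by
  unfold numH; fun_prop

@[fun_prop] theorem pt_denH (hp : PT Bool p) (hH : PT Bool fun x : α × ℕ => H x.1 x.2) :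
    PT Bool fun a => denH (p a) (H a) := by
  unfold denH
  have : PT Bool fun a => List.replicate ((p a).A * (p a).r) false := PT.replicate (by fun_prop) _
  fun_prop

@[fun_prop] theorem pt_size (hi : PT Bool i) : PT Bool fun a => Nat.size (i a) := by
  have h1 : PT Bool fun x : α × ℕ => i x.1 / 2 ^ x.2 :=
    PT.natRecN (m := fun x : α × ℕ => x.2) (by fun_prop) (fun x k => i x.1 / 2 ^ k)
      (by simp only [pow_zero, Nat.div_one]; fun_prop) (fun x => x.2.2 / 2) (by fun_prop)
      (fun a k => by rw [pow_succ, Nat.div_div_eq_div_mul])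
      ⟨fun x => i x.1, PT.pb (by fun_prop), fun a k _ => Nat.div_le_self _ _⟩
  have h2 : PT Bool fun a => sumR (i a) fun k => b2n (Nat.ble 1 (i a / 2 ^ k)) :=
    pt_sumR hi (pt_b2n (PT.ble (PT.const _) h1))
  refine h2.congr fun a => ?_
  have e : ∀ k, b2n (Nat.ble 1 (i a / 2 ^ k)) = if k < (i a).size then 1 else 0 := fun k => by
    have e0 : k < (i a).size ↔ 1 ≤ i a / 2 ^ k := by
      rw [Nat.lt_size, Nat.one_le_div_iff (by positivity)]
    split_ifs with h
    · rw [Nat.ble_eq_true_of_le (e0.1 h)]; rfl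
    · rw [Bool.eq_false_iff.2 fun h' => h (e0.2 (Nat.le_of_ble_eq_true h'))]; rfl
  simp only [sumR, e]
  rw [← Finset.sum_filter, Finset.sum_const, smul_eq_mul, mul_one]
  have : (Finset.range (i a)).filter (· < (i a).size) = Finset.range (i a).size := by
    have := Nat.size_le.2 (Nat.lt_two_pow_self (n := i a))
    ext k; simp; omega
  rw [this, Finset.card_range]

end Vale.Agent.P317
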